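import Mathlib
import Vale.Agent.Lib.P248.helper1.ConeAux

/-!
Pool job P248-CQD (owner helper1): an interior point of the cone `coneE D c h` is
`ecomb (τ * h) ((1 - τ) • ζ + τ • c)` with `ζ` in the interior of `D` and `0 < τ < 1`.
-/

namespace Vale.Agent.Lib.P248.H93

open MeasureTheory Set
open scoped ENNReal
open Vale.Agent.Lib.P227 Vale.Agent.Lib.P248.H1

theorem cqd_ecomb_inj {n : ℕ} {t t' : ℝ} {w w' : EuclideanSpace ℝ (Fin n)}
    (h : ecomb t w = ecomb t' w') : t = t' ∧ w = w' := by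
  constructor
  · have h0 : ecomb t w 0 = ecomb t' w' 0 := by rw [h]
    rwa [ecomb_zero, ecomb_zero] at h0
  · have h1 : etail (ecomb t w) = etail (ecomb t' w') := by rw [h]
    rwa [etail_ecomb, etail_ecomb] at h1

theorem interior_coneE {n : ℕ} (D : Set (EuclideanSpace ℝ (Fin n)))
    (c : EuclideanSpace ℝ (Fin n)) (h : ℝ) (hh : 0 < h)
    (z : EuclideanSpace ℝ (Fin (n + 1))) (hz : z ∈ interior (coneE D c h)) :
    ∃ ζ ∈ interior D, ∃ τ : ℝ, 0 < τ ∧ τ < 1 ∧
      z = ecomb (τ * h) ((1 - τ) • ζ + τ • c) := by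
  obtain ⟨d, hd, r, hr0, hr1, hzeq⟩ := interior_subset hz
  have hz0 : z 0 = r * h := by rw [hzeq, ecomb_zero]
  -- Step 1: `0 < r < 1`.
  have hcont1 : Continuous (fun t : ℝ => ecomb t (etail z)) :=
    continuous_ecomb_prod.comp (continuous_id.prodMk continuous_const)
  have hU : IsOpen ((fun t : ℝ => ecomb t (etail z)) ⁻¹' interior (coneE D c h)) :=
    isOpen_interior.preimage hcont1
  have hUsub : (fun t : ℝ => ecomb t (etail z)) ⁻¹' interior (coneE D c h) ⊆ Icc 0 h := by
    intro t ht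
    obtain ⟨d', _, r', hr0', hr1', heq⟩ := interior_subset ht
    have ht' : t = r' * h := (cqd_ecomb_inj heq).1
    rw [ht']
    exact ⟨mul_nonneg hr0' hh.le, by nlinarith⟩
  have hzU : z 0 ∈ (fun t : ℝ => ecomb t (etail z)) ⁻¹' interior (coneE D c h) := by
    show ecomb (z 0) (etail z) ∈ interior (coneE D c h)
    rw [ecomb_eta]
    exact hz
  have hIoo : z 0 ∈ Ioo 0 h := by
    have h3 := interior_maximal hUsub hU hzU
    rwa [interior_Icc] at h3
  have hrpos : 0 < r := by
    have h3 := hIoo.1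
    rw [hz0] at h3
    rcases hr0.lt_or_eq with h4 | h4
    · exact h4
    · rw [← h4, zero_mul] at h3
      exact absurd h3 (lt_irrefl 0)
  have hrlt : r < 1 := by
    have h3 := hIoo.2
    rw [hz0] at h3
    nlinarith
  -- Step 2: `d` is an interior point of `D`.
  have hcont2 : Continuous
      (fun d' : EuclideanSpace ℝ (Fin n) => ecomb (r * h) ((1 - r) • d' + r • c)) :=
    (continuous_ecomb (r * h)).comp ((continuous_const_smul (1 - r)).add continuous_const)
  have hV : IsOpen ((fun d' : EuclideanSpace ℝ (Fin n) =>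
      ecomb (r * h) ((1 - r) • d' + r • c)) ⁻¹' interior (coneE D c h)) :=
    isOpen_interior.preimage hcont2
  have hVsub : (fun d' : EuclideanSpace ℝ (Fin n) =>
      ecomb (r * h) ((1 - r) • d' + r • c)) ⁻¹' interior (coneE D c h) ⊆ D := by
    intro d' hd'
    obtain ⟨d'', hd'', r', _, _, heq⟩ := interior_subset hd'
    obtain ⟨e1, e2⟩ := cqd_ecomb_inj heq
    have hrr : r = r' := mul_right_cancel₀ hh.ne' e1
    subst hrr
    have e3 : (1 - r) • d' = (1 - r) • d'' := add_right_cancel e2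
    have hne : (1 - r) ≠ 0 := (sub_pos.mpr hrlt).ne'
    have e4 : d' = d'' := smul_right_injective _ hne e3
    rw [e4]
    exact hd''
  have hdV : d ∈ (fun d' : EuclideanSpace ℝ (Fin n) =>
      ecomb (r * h) ((1 - r) • d' + r • c)) ⁻¹' interior (coneE D c h) := by
    show ecomb (r * h) ((1 - r) • d + r • c) ∈ interior (coneE D c h)
    rw [← hzeq]
    exact hz
  exact ⟨d, interior_maximal hVsub hV hdV, r, hrpos, hrlt, hzeq⟩

end Vale.Agent.Lib.P248.H93
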