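import Mathlib

/-!
Pool job P248-CQE (owner helper1): the weighted AM-GM inequality
`(n+2)^(n+2) * (τ * (1-τ)^(n+1)) ≤ (n+1)^(n+1)` on `[0,1]`.
-/

namespace Vale.Agent.Lib.P248.H93

/-- Bernoulli-type inequality `(m+1) s^m ≤ 1 + m s^(m+1)` for `s ≥ 0`. -/
theorem cqe_bern (m : ℕ) (s : ℝ) (hs : 0 ≤ s) :
    ((m : ℝ) + 1) * s ^ m ≤ 1 + (m : ℝ) * s ^ (m + 1) := by
  induction m with
  | zero => simp
  | succ m ih =>
    have h1 : 0 ≤ (1 - s) * (1 - s ^ (m + 1)) := by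
      rcases le_total s 1 with h | h
      · exact mul_nonneg (sub_nonneg.mpr h) (sub_nonneg.mpr (pow_le_one₀ hs h))
      · exact mul_nonneg_of_nonpos_of_nonpos (sub_nonpos.mpr h)
          (sub_nonpos.mpr (one_le_pow₀ h))
    have h2 := mul_le_mul_of_nonneg_left ih hs
    have e1 : s ^ (m + 1) = s ^ m * s := pow_succ s m
    have e2 : s ^ (m + 1 + 1) = s ^ m * s * s := by rw [pow_succ, pow_succ]
    rw [e1] at h1 h2
    rw [e2, e1]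
    push_cast
    nlinarith [h1, h2]

theorem tau_amgm (n : ℕ) (τ : ℝ) (h0 : 0 ≤ τ) (h1 : τ ≤ 1) :
    (n + 2 : ℝ) ^ (n + 2) * (τ * (1 - τ) ^ (n + 1)) ≤ (n + 1 : ℝ) ^ (n + 1) := by
  have _h0 := h0
  have hn1 : (0 : ℝ) < (n : ℝ) + 1 := by positivity
  have hn2 : (0 : ℝ) < (n : ℝ) + 2 := by positivity
  obtain ⟨s, hs⟩ : ∃ s : ℝ, s = ((n : ℝ) + 2) * (1 - τ) / ((n : ℝ) + 1) := ⟨_, rfl⟩
  have hs0 : 0 ≤ s := by
    rw [hs]
    exact div_nonneg (mul_nonneg hn2.le (sub_nonneg.mpr h1)) hn1.le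
  have hb := cqe_bern (n + 1) s hs0
  have hmul : ((n : ℝ) + 1) * s = ((n : ℝ) + 2) * (1 - τ) := by
    rw [hs]
    field_simp
  have hpow : ((n : ℝ) + 1) ^ (n + 1) * s ^ (n + 1)
      = ((n : ℝ) + 2) ^ (n + 1) * (1 - τ) ^ (n + 1) := by
    rw [← mul_pow, ← mul_pow, hmul]
  have h3 : s ^ (n + 1) * (((n : ℝ) + 2) * τ) ≤ 1 := by
    have e2 : s ^ (n + 1 + 1) = s ^ (n + 1) * s := pow_succ s (n + 1)
    push_cast at hb
    rw [e2] at hb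
    have e : ((n : ℝ) + 2) * τ = ((n : ℝ) + 2) - ((n : ℝ) + 1) * s := by
      rw [hmul]
      ring
    rw [e]
    nlinarith [hb]
  calc (n + 2 : ℝ) ^ (n + 2) * (τ * (1 - τ) ^ (n + 1))
      = ((n : ℝ) + 2) ^ (n + 1) * (1 - τ) ^ (n + 1) * (((n : ℝ) + 2) * τ) := by ring
    _ = ((n : ℝ) + 1) ^ (n + 1) * (s ^ (n + 1) * (((n : ℝ) + 2) * τ)) := by
        rw [← hpow]
        ring
    _ ≤ ((n : ℝ) + 1) ^ (n + 1) * 1 := by
        apply mul_le_mul_of_nonneg_left h3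
        positivity
    _ = (n + 1 : ℝ) ^ (n + 1) := by ring

end Vale.Agent.Lib.P248.H93
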