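import Mathlib
import Vale.Agent.Lib.P248.helper1.ConeDefs

/-!
Pool job P248-SPB (owner helper1), second copy: change of variables for the projective map
`y ↦ (1 - ⟪z, y⟫)⁻¹ • y`, whose Jacobian is `(1 - ⟪z, y⟫)⁻¹ ^ (m + 1)`.
-/

namespace Vale.Agent.Lib.P248.H93Y

open MeasureTheory Set
open scoped ENNReal
open Vale.Agent.Lib.P248.H1

/-- The derivative of `y ↦ (1 - ⟪z, y⟫)⁻¹ • y` at `y`. -/
noncomputable def projD {m : ℕ} (z y : EuclideanSpace ℝ (Fin m)) :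
    EuclideanSpace ℝ (Fin m) →L[ℝ] EuclideanSpace ℝ (Fin m) :=
  (1 - inner ℝ z y)⁻¹ • ContinuousLinearMap.id ℝ (EuclideanSpace ℝ (Fin m))
    + (((1 - inner ℝ z y)⁻¹ ^ 2) • innerSL ℝ z).smulRight y

theorem projD_apply {m : ℕ} (z y v : EuclideanSpace ℝ (Fin m)) :
    projD z y v = (1 - inner ℝ z y)⁻¹ • v
      + ((1 - inner ℝ z y)⁻¹ ^ 2 * inner ℝ z v) • y := by
  simp [projD]

theorem hasFDerivAt_proj {m : ℕ} (z y : EuclideanSpace ℝ (Fin m))
    (h : inner ℝ z y ≠ 1) :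
    HasFDerivAt (fun y : EuclideanSpace ℝ (Fin m) => (1 - inner ℝ z y)⁻¹ • y)
      (projD z y) y := by
  have hne : 1 - inner ℝ z y ≠ 0 := sub_ne_zero.mpr (Ne.symm h)
  have h0 : HasFDerivAt (fun y : EuclideanSpace ℝ (Fin m) => inner ℝ z y)
      (innerSL ℝ z) y := (innerSL ℝ z).hasFDerivAt
  have h1 : HasFDerivAt (fun y : EuclideanSpace ℝ (Fin m) => 1 - inner ℝ z y)
      (-(innerSL ℝ z)) y := h0.const_sub 1
  have h2 := (hasDerivAt_inv hne).comp_hasFDerivAt y h1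
  have h3 := h2.smul (hasFDerivAt_id y)
  refine h3.congr_fderiv ?_
  refine ContinuousLinearMap.ext fun v => ?_
  rw [projD_apply]
  simp only [add_apply, smul_apply,
    ContinuousLinearMap.smulRight_apply, neg_apply,
    ContinuousLinearMap.id_apply, innerSL_apply_apply, Function.comp_apply, id_eq, smul_eq_mul]
  have e : (1 - inner ℝ z y)⁻¹ ^ 2 = ((1 - inner ℝ z y) ^ 2)⁻¹ := by rw [inv_pow]
  rw [e]
  congr 2
  ring

theorem det_projD {m : ℕ} (z y : EuclideanSpace ℝ (Fin m)) (h : inner ℝ z y ≠ 1) :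
    (projD z y).det = (1 - inner ℝ z y)⁻¹ ^ (m + 1) := by
  have hne : 1 - inner ℝ z y ≠ 0 := sub_ne_zero.mpr (Ne.symm h)
  obtain ⟨a, ha⟩ : ∃ a : ℝ, a = (1 - inner ℝ z y)⁻¹ := ⟨_, rfl⟩
  have hA : ((projD z y : EuclideanSpace ℝ (Fin m) →L[ℝ] EuclideanSpace ℝ (Fin m)) :
      EuclideanSpace ℝ (Fin m) →ₗ[ℝ] EuclideanSpace ℝ (Fin m))
      = a • LinearMap.transvection
          (a • ((innerSL ℝ z : EuclideanSpace ℝ (Fin m) →L[ℝ] ℝ) :
            EuclideanSpace ℝ (Fin m) →ₗ[ℝ] ℝ)) y := by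
    refine LinearMap.ext fun v => ?_
    rw [ContinuousLinearMap.coe_coe, projD_apply, ← ha, LinearMap.smul_apply,
      LinearMap.transvection.apply, LinearMap.smul_apply, ContinuousLinearMap.coe_coe,
      innerSL_apply_apply, smul_add, smul_smul, smul_eq_mul]
    congr 2
    ring
  have hdet : (projD z y).det = LinearMap.det
      ((projD z y : EuclideanSpace ℝ (Fin m) →L[ℝ] EuclideanSpace ℝ (Fin m)) :
      EuclideanSpace ℝ (Fin m) →ₗ[ℝ] EuclideanSpace ℝ (Fin m)) := rfl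
  rw [hdet, hA, LinearMap.det_smul, LinearMap.transvection.det, finrank_euclideanSpace_fin,
    LinearMap.smul_apply, ContinuousLinearMap.coe_coe, innerSL_apply_apply, smul_eq_mul,
    ← ha, pow_succ]
  congr 1
  rw [ha]
  field_simp
  ring

theorem proj_injOn {m : ℕ} (z : EuclideanSpace ℝ (Fin m))
    (T : Set (EuclideanSpace ℝ (Fin m))) (hlt : ∀ y ∈ T, inner ℝ z y < 1) :
    InjOn (fun y : EuclideanSpace ℝ (Fin m) => (1 - inner ℝ z y)⁻¹ • y) T := by
  intro y hy y' hy' h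
  have h' : (1 - inner ℝ z y)⁻¹ • y = (1 - inner ℝ z y')⁻¹ • y' := h
  have hy1 : 0 < 1 - inner ℝ z y := by linarith [hlt y hy]
  have hy1' : 0 < 1 - inner ℝ z y' := by linarith [hlt y' hy']
  have hin : inner ℝ z ((1 - inner ℝ z y)⁻¹ • y) = inner ℝ z ((1 - inner ℝ z y')⁻¹ • y') := by
    rw [h']
  rw [inner_smul_right, inner_smul_right] at hin
  have ht : inner ℝ z y = inner ℝ z y' := by
    field_simp at hin
    linarith
  rw [ht] at h'
  exact smul_right_injective _ (inv_ne_zero hy1'.ne') h'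

theorem volume_image_proj {m : ℕ} (z : EuclideanSpace ℝ (Fin m))
    (T : Set (EuclideanSpace ℝ (Fin m))) (hT : MeasurableSet T)
    (hlt : ∀ y ∈ T, inner ℝ z y < 1) :
    volume ((fun y : EuclideanSpace ℝ (Fin m) => (1 - inner ℝ z y)⁻¹ • y) '' T)
      = ∫⁻ y in T, ENNReal.ofReal ((1 - inner ℝ z y)⁻¹ ^ (m + 1)) := by
  rw [← lintegral_abs_det_fderiv_eq_addHaar_image volume hT (f' := projD z)
    (fun y hy => (hasFDerivAt_proj z y (hlt y hy).ne).hasFDerivWithinAt)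
    (proj_injOn z T hlt)]
  refine setLIntegral_congr_fun hT (fun y hy => ?_)
  have hpos : 0 < 1 - inner ℝ z y := by linarith [hlt y hy]
  show ENNReal.ofReal |(projD z y).det| = ENNReal.ofReal ((1 - inner ℝ z y)⁻¹ ^ (m + 1))
  rw [det_projD z y (hlt y hy).ne, abs_of_nonneg (by positivity)]

end Vale.Agent.Lib.P248.H93Y
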