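import Mathlib
import Vale.Agent.Lib.P248.helper37.Q2Defs
import Vale.Agent.Lib.P248.helper37.Final

/-!
Pool job P248-Q2AB-J10 (owner helper37), second copy, in hypotheses form: the tree of an
admissible pair satisfies the local inequality at every node.  The leaves J1 to J4 of the pool
enter as hypotheses, with the statements of the pool skeleton.
-/

open MeasureTheory Set

namespace Vale.Agent.Lib.P248.H93Q

open Vale.Agent.Lib.P248.H37 Vale.Agent.Lib.P248.H37Q

theorem tree_u_of
    (hvT0 : ∀ (A : Set (Fin 0 → ℝ)) (z : Fin 0 → ℝ), vT A z = 1)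
    (m : ℕ) (A : Set (Fin m → ℝ)) (z : Fin m → ℝ) :
    (tree m A z).u = (m.factorial : ℝ) * vT A z * ∏ i, z i := by
  cases m with
  | zero =>
    show (1 : ℝ) = _
    rw [hvT0 A z]
    simp
  | succ n => rfl

theorem tree_b_of
    (hvA0 : ∀ {A : Set (Fin 0 → ℝ)} (_ : Good A), vA A = 1)
    (m : ℕ) (A : Set (Fin m → ℝ)) (z : Fin m → ℝ) (hA : Good A) :
    (tree m A z).b = (m.factorial : ℝ) * vA A / ∏ i, z i := by
  cases m with
  | zero =>
    show (1 : ℝ) = _
    rw [hvA0 hA]
    simp
  | succ n => rfl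

theorem tree_term_alg (F N V Vi Pi zi ali : ℝ) (hF : 0 < F) (hN : 0 < N + 1) (hV : 0 < V)
    (hPi : 0 < Pi) (hzi : 0 < zi) :
    (1 + F * Vi * Pi / ((N + 1) * F * V * (zi * Pi))) * (F * ali / Pi)
      = F * ((zi + Vi / ((N + 1) * V)) * ali) / (zi * Pi) := by
  have h1 := hF.ne'
  have h2 := hN.ne'
  have h3 := hV.ne'
  have h4 := hPi.ne'
  have h5 := hzi.ne'
  field_simp

theorem tree_ok_of
    (hcone : ∀ (n : ℕ) (M : Set (Fin (n + 1) → ℝ)) (_ : IsCompact M)
      (_ : Convex ℝ M) (_ : ∀ p ∈ M, ∀ i, 0 ≤ p i) (y : Fin (n + 1) → ℝ) (_ : y ∈ M),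
      ∑ i, ENNReal.ofReal (y i) * volume (sec M i) ≤ ((n : ENNReal) + 1) * volume M)
    (hsecpos : ∀ {n : ℕ} {A : Set (Fin (n + 1) → ℝ)} (_ : Good A) (z : Fin (n + 1) → ℝ)
      (i : Fin (n + 1)), sec (posZ A z) i = posZ (sec A i) (fun k => z (i.succAbove k)))
    (hadm : ∀ {n : ℕ} {A : Set (Fin (n + 1) → ℝ)} {z : Fin (n + 1) → ℝ} (_ : Adm A z)
      (i : Fin (n + 1)), Adm (sec A i) (fun k => z (i.succAbove k)))
    (hcomp : ∀ {m : ℕ} {A : Set (Fin m → ℝ)} {z : Fin m → ℝ} (_ : Adm A z),
      IsCompact (posZ A z))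
    (hconv : ∀ {m : ℕ} (A : Set (Fin m → ℝ)) (z : Fin m → ℝ), Convex ℝ (posZ A z))
    (hvTpos : ∀ {m : ℕ} {A : Set (Fin m → ℝ)} {z : Fin m → ℝ} (_ : Adm A z), 0 < vT A z)
    (hfin : ∀ {m : ℕ} {A : Set (Fin m → ℝ)} {z : Fin m → ℝ} (_ : Adm A z),
      volume (posZ A z) ≠ ⊤)
    (hvApos : ∀ {m : ℕ} {A : Set (Fin m → ℝ)} (_ : Good A), 0 < vA A)
    (hvT0 : ∀ (A : Set (Fin 0 → ℝ)) (z : Fin 0 → ℝ), vT A z = 1)
    (hvA0 : ∀ {A : Set (Fin 0 → ℝ)} (_ : Good A), vA A = 1)
    (hstar : ∀ {m : ℕ} {A : Set (Fin m → ℝ)} {z : Fin m → ℝ} (_ : Adm A z)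
      (ξ : Fin m → ℝ) (_ : ∀ i, 0 ≤ ξ i) (_ : ∀ y ∈ posZ A z, ∑ i, y i * ξ i ≤ 1),
      (fun i => z i + ξ i) ∈ A) :
    ∀ (m : ℕ) (A : Set (Fin m → ℝ)) (z : Fin m → ℝ), Adm A z → (tree m A z).Ok := by
  intro m
  induction m with
  | zero =>
    intro A z _
    exact trivial
  | succ n ih =>
    intro A z h
    have hPz : 0 < ∏ j, z j := Finset.prod_pos (fun i _ => h.pos i)
    have hV : 0 < vT A z := hvTpos h
    have hal : 0 < vA A := hvApos h.good
    have hF1 : (0 : ℝ) < ((n + 1).factorial : ℝ) := by positivity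
    have hF : (0 : ℝ) < (n.factorial : ℝ) := by positivity
    have hn1 : (0 : ℝ) < (n : ℝ) + 1 := by positivity
    have hden : 0 < ((n : ℝ) + 1) * vT A z := mul_pos hn1 hV
    obtain ⟨ξ, hξdef⟩ : ∃ ξ : Fin (n + 1) → ℝ, ξ = fun i =>
        vT (sec A i) (fun k => z (i.succAbove k)) / (((n : ℝ) + 1) * vT A z) := ⟨_, rfl⟩
    have hξi : ∀ i, ξ i = vT (sec A i) (fun k => z (i.succAbove k)) / (((n : ℝ) + 1) * vT A z) :=
      fun i => by rw [hξdef]
    have hξ0 : ∀ i, 0 ≤ ξ i := fun i => by
      rw [hξi]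
      exact div_nonneg (hvTpos (hadm h i)).le hden.le
    -- Step 1: the functional of the section volumes is at most one on the positive polar.
    have hstep1 : ∀ y ∈ posZ A z, ∑ i, y i * ξ i ≤ 1 := by
      intro y hy
      have h1 := hcone n (posZ A z) (hcomp h) (hconv A z) (fun p hp => hp.1) y hy
      have e : ∀ i, volume (sec (posZ A z) i)
          = ENNReal.ofReal (vT (sec A i) (fun k => z (i.succAbove k))) := by
        intro i
        rw [hsecpos h.good z i]
        exact (ENNReal.ofReal_toReal (hfin (hadm h i))).symm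
      have e0 : volume (posZ A z) = ENNReal.ofReal (vT A z) :=
        (ENNReal.ofReal_toReal (hfin h)).symm
      have h2 : ∑ i, ENNReal.ofReal (y i)
          * ENNReal.ofReal (vT (sec A i) (fun k => z (i.succAbove k)))
          ≤ ((n : ENNReal) + 1) * ENNReal.ofReal (vT A z) := by
        rw [← e0]
        refine le_trans (le_of_eq ?_) h1
        exact Finset.sum_congr rfl (fun i _ => by rw [e i])
      have h3 := cone_to_real n (x := y)
        (s := fun i => vT (sec A i) (fun k => z (i.succAbove k))) (fun i => hy.1 i)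
        (fun i => (hvTpos (hadm h i)).le) hV.le h2
      have e3 : ∑ i, y i * ξ i
          = (∑ i, y i * vT (sec A i) (fun k => z (i.succAbove k))) / (((n : ℝ) + 1) * vT A z) := by
        rw [Finset.sum_div]
        refine Finset.sum_congr rfl (fun i _ => ?_)
        rw [hξi, mul_div_assoc]
      rw [e3, div_le_one hden]
      exact h3
    -- Step 2: the shifted point is in the body.
    have hp : (fun i => z i + ξ i) ∈ A := hstar h ξ hξ0 hstep1
    -- Step 3: the cone inequality at the shifted point.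
    have h4 : ∑ i, ENNReal.ofReal (z i + ξ i) * volume (sec A i)
        ≤ ((n : ENNReal) + 1) * volume A :=
      cone_all n A h.good.closed h.good.convex h.good.nonneg h.good.down _ hp
    have e1 : ∀ i, volume (sec A i) = ENNReal.ofReal (vA (sec A i)) := fun i =>
      (ENNReal.ofReal_toReal (good_vol_lt_top (good_sec h.good i)).ne).symm
    have e2 : volume A = ENNReal.ofReal (vA A) :=
      (ENNReal.ofReal_toReal (good_vol_lt_top h.good).ne).symm
    have h5 : ∑ i, ENNReal.ofReal (z i + ξ i) * ENNReal.ofReal (vA (sec A i))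
        ≤ ((n : ENNReal) + 1) * ENNReal.ofReal (vA A) := by
      rw [← e2]
      refine le_trans (le_of_eq ?_) h4
      exact Finset.sum_congr rfl (fun i _ => by rw [e1 i])
    have h6 := cone_to_real n (x := fun i => z i + ξ i) (s := fun i => vA (sec A i))
      (fun i => add_nonneg (h.pos i).le (hξ0 i))
      (fun i => (hvApos (good_sec h.good i)).le) hal.le h5
    -- Step 4: the labels.
    have hterm : ∀ i, (1 + (tree n (sec A i) (fun k => z (i.succAbove k))).u
          / (((n + 1).factorial : ℝ) * vT A z * ∏ j, z j))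
          * (tree n (sec A i) (fun k => z (i.succAbove k))).b
        = (n.factorial : ℝ) * ((z i + ξ i) * vA (sec A i)) / ∏ j, z j := by
      intro i
      have hPi : 0 < ∏ k, z (i.succAbove k) := Finset.prod_pos (fun k _ => h.pos _)
      rw [tree_u_of hvT0, tree_b_of hvA0 _ _ _ (good_sec h.good i),
        Fin.prod_univ_succAbove (fun j => z j) i, Nat.factorial_succ, hξi]
      push_cast
      have := tree_term_alg (n.factorial : ℝ) (n : ℝ) (vT A z)
        (vT (sec A i) (fun k => z (i.succAbove k))) (∏ k, z (i.succAbove k)) (z i)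
        (vA (sec A i)) hF hn1 hV hPi (h.pos i)
      rw [← this]
    have key : ∑ i, (1 + (tree n (sec A i) (fun k => z (i.succAbove k))).u
          / (((n + 1).factorial : ℝ) * vT A z * ∏ j, z j))
          * (tree n (sec A i) (fun k => z (i.succAbove k))).b
        ≤ ((n + 1).factorial : ℝ) * vA A / ∏ j, z j := by
      calc ∑ i, (1 + (tree n (sec A i) (fun k => z (i.succAbove k))).u
              / (((n + 1).factorial : ℝ) * vT A z * ∏ j, z j))
              * (tree n (sec A i) (fun k => z (i.succAbove k))).b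
          = ∑ i, (n.factorial : ℝ) * ((z i + ξ i) * vA (sec A i)) / ∏ j, z j :=
            Finset.sum_congr rfl (fun i _ => hterm i)
        _ = (n.factorial : ℝ) * (∑ i, (z i + ξ i) * vA (sec A i)) / ∏ j, z j := by
            rw [Finset.mul_sum, Finset.sum_div]
        _ ≤ (n.factorial : ℝ) * (((n : ℝ) + 1) * vA A) / ∏ j, z j :=
            div_le_div_of_nonneg_right (mul_le_mul_of_nonneg_left h6 hF.le) hPz.le
        _ = ((n + 1).factorial : ℝ) * vA A / ∏ j, z j := by
            rw [Nat.factorial_succ]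
            push_cast
            ring
    exact ⟨mul_pos (mul_pos hF1 hV) hPz, div_pos (mul_pos hF1 hal) hPz,
      fun i => ih _ _ (hadm h i), key⟩

end Vale.Agent.Lib.P248.H93Q
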